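import Vale.Agent.P354T.Lim

/-!
The space of data is a Baire space.
-/

open scoped ContDiff ENNReal
open Set Filter Topology

namespace Vale.Agent.P354T

open Vale.Agent.P354I

/-- The quadratic form of a matrix. -/
def qf (A : Matrix (Fin 3) (Fin 3) ℝ) (v : Fin 3 → ℝ) : ℝ := ∑ i, ∑ j, v i * A i j * v j

/-- Uniform positivity with respect to the metric of the cylinder. -/
def UP (d : Dat) (c : ℝ) : Prop := ∀ y ≠ 0, ∀ v, c * ∑ i, v i ^ 2 ≤ ‖y‖ ^ 2 * qf (d.h y) v

lemma qf_eq (A : Matrix (Fin 3) (Fin 3) ℝ) (v : Fin 3 → ℝ) :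
    star v ⬝ᵥ A.mulVec v = qf A v := by
  simp only [qf, dotProduct, Matrix.mulVec, star_trivial, Finset.mul_sum, mul_assoc]

lemma qf_pos {A : Matrix (Fin 3) (Fin 3) ℝ} (h : A.PosDef) {v : Fin 3 → ℝ} (hv : v ≠ 0) :
    0 < qf A v := by
  rw [← qf_eq]
  exact h.dotProduct_mulVec_pos hv

lemma posDef_of {A : Matrix (Fin 3) (Fin 3) ℝ} (h : A.IsSymm) (hp : ∀ v ≠ 0, 0 < qf A v) :
    A.PosDef := by
  refine Matrix.PosDef.of_dotProduct_mulVec_pos ?_ fun v hv => ?_
  · rwa [Matrix.IsHermitian, Matrix.conjTranspose_eq_transpose_of_trivial]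
  · rw [qf_eq]
    exact hp v hv

lemma symm_of {A : Matrix (Fin 3) (Fin 3) ℝ} (h : A.PosDef) : A.IsSymm := by
  have := h.isHermitian
  rwa [Matrix.IsHermitian, Matrix.conjTranspose_eq_transpose_of_trivial] at this

lemma qf_close {A B : Matrix (Fin 3) (Fin 3) ℝ} {t η : ℝ} (ht : 0 ≤ t)
    (h : ∀ i j, t * |A i j - B i j| ≤ η) (v : Fin 3 → ℝ) :
    t * qf B v - 3 * η * ∑ i, v i ^ 2 ≤ t * qf A v := by
  have k : ∀ i j, t * (v i * B i j * v j) - η * ((v i ^ 2 + v j ^ 2) / 2) ≤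
      t * (v i * A i j * v j) := by
    intro i j
    have h1 : |v i * v j| ≤ (v i ^ 2 + v j ^ 2) / 2 :=
      abs_le.2 ⟨by nlinarith [sq_nonneg (v i + v j)], by nlinarith [sq_nonneg (v i - v j)]⟩
    have h2 : |t * (A i j - B i j) * (v i * v j)| ≤ η * ((v i ^ 2 + v j ^ 2) / 2) := by
      rw [abs_mul, abs_mul, abs_of_nonneg ht]
      exact mul_le_mul (h i j) h1 (abs_nonneg _)
        ((mul_nonneg ht (abs_nonneg _)).trans (h i j))
    have h3 := neg_abs_le (t * (A i j - B i j) * (v i * v j))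
    nlinarith
  simp only [qf, Fin.sum_univ_three]
  linarith [k 0 0, k 0 1, k 0 2, k 1 0, k 1 1, k 1 2, k 2 0, k 2 1, k 2 2]

lemma sq_le_wt {s : ℝ} (hs : 0 ≤ s) (y : X) : ‖y‖ ^ 2 ≤ wt s 0 y :=
  le_mul_of_one_le_left (by positivity) (Real.one_le_rpow (one_le_rho _) hs)

/-- Pointwise closeness of the metrics. -/
lemma h_close {s η : ℝ} {d d' : Dat} (hη : 0 ≤ η) (h : pm s 0 d d' ≤ ENNReal.ofReal η) {y : X}
    (hy : y ≠ 0) (i j : Fin 3) : wt s 0 y * |d.h y i j - d'.h y i j| ≤ η := by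
  have := le_of_wn le_rfl hη (pm_parts h i j).1 hy
  rwa [norm_iteratedFDeriv_zero, Real.norm_eq_abs] at this

lemma UP.near {s η c : ℝ} {d d' : Dat} (hs : 0 ≤ s) (h : UP d' c) (hη : 0 ≤ η)
    (hd : pm s 0 d d' ≤ ENNReal.ofReal η) : UP d (c - 3 * η) := by
  intro y hy v
  have h1 := qf_close (A := d.h y) (B := d'.h y) (t := ‖y‖ ^ 2) (η := η) (by positivity)
    (fun i j => (mul_le_mul_of_nonneg_right (sq_le_wt hs y) (abs_nonneg _)).trans
      (h_close hη hd hy i j)) v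
  have h2 := h y hy v
  linarith

lemma UP.pos {c : ℝ} {d : Dat} (h : UP d c) (hc : 0 < c) {y : X} (hy : y ≠ 0)
    (hs : (d.h y).IsSymm) : (d.h y).PosDef := by
  refine posDef_of hs fun v hv => ?_
  obtain ⟨i, hi⟩ := Function.ne_iff.1 hv
  have h1 : 0 < ∑ i, v i ^ 2 :=
    Finset.sum_pos' (fun _ _ => sq_nonneg _) ⟨i, Finset.mem_univ _, sq_pos_of_ne_zero hi⟩
  have h2 := (mul_pos hc h1).trans_le (h y hy v)
  exact (pos_iff_pos_of_mul_pos h2).1 (pow_pos (norm_pos_iff.2 hy) 2)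

/-- Uniform positivity on a compact set. -/
lemma up_compact {d : Dat} (hs : DSm d) (hp : ∀ y ≠ 0, (d.h y).PosDef) {K : Set X}
    (hK : IsCompact K) (h0 : ∀ y ∈ K, y ≠ 0) :
    ∃ c > 0, ∀ y ∈ K, ∀ v, c * ∑ i, v i ^ 2 ≤ ‖y‖ ^ 2 * qf (d.h y) v := by
  have hc : ContinuousOn (fun p : X × (Fin 3 → ℝ) => ‖p.1‖ ^ 2 * qf (d.h p.1) p.2)
      (K ×ˢ Metric.sphere 0 1) := by
    refine ContinuousOn.mul (by fun_prop) ?_
    refine continuousOn_finsetSum _ fun i _ => continuousOn_finsetSum _ fun j _ => ?_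
    refine ContinuousOn.mul (ContinuousOn.mul (by fun_prop) ?_) (by fun_prop)
    exact (hs i j).1.continuousOn.comp continuousOn_fst fun p hp => h0 _ hp.1
  obtain ⟨c, c0, c1⟩ := (hK.prod (isCompact_sphere (0 : Fin 3 → ℝ) 1)).exists_forall_le' hc
    (a := 0) fun p hp' => by
      refine mul_pos (pow_pos (norm_pos_iff.2 (h0 _ hp'.1)) 2) (qf_pos (hp _ (h0 _ hp'.1)) ?_)
      rintro e
      have := hp'.2
      rw [e] at this
      simp at this
  refine ⟨c / 3, by positivity, fun y hy v => ?_⟩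
  by_cases hv : v = 0
  · simp [hv, qf]
  have n0 : 0 < ‖v‖ := norm_pos_iff.2 hv
  have h1 := c1 (y, ‖v‖⁻¹ • v) ⟨hy, by simp [norm_smul, n0.ne']⟩
  have h2 : qf (d.h y) v = ‖v‖ ^ 2 * qf (d.h y) (‖v‖⁻¹ • v) := by
    simp only [qf, Fin.sum_univ_three, Pi.smul_apply, smul_eq_mul]
    field_simp
  have h3 : ∀ i, v i ^ 2 ≤ ‖v‖ ^ 2 := fun i => by
    rw [← sq_abs]
    exact pow_le_pow_left₀ (abs_nonneg _) (norm_le_pi_norm v i) 2
  rw [h2, Fin.sum_univ_three]
  have h4 := mul_le_mul_of_nonneg_left h1 (sq_nonneg ‖v‖)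
  have h5 := mul_le_mul_of_nonneg_left (add_le_add (add_le_add (h3 0) (h3 1)) (h3 2)) c0.le
  simp only at h4
  nlinarith

lemma dT_smul {t : ℝ} (ht : t ≠ 0) (y v : X) : dT (t • y) v = t⁻¹ * dT y v := by
  by_cases hy : y = 0
  · simp [hy, dT]
  have := norm_ne_zero_iff.2 hy
  simp only [dT, inner_smul_left, norm_smul, mul_pow, Real.norm_eq_abs, sq_abs, conj_trivial]
  field_simp

lemma dP_smul {t : ℝ} (ht : t ≠ 0) (y v : X) : dP (t • y) v = t⁻¹ * dP y v := by
  by_cases hy : y = 0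
  · simp [hy, dP]
  have := norm_ne_zero_iff.2 hy
  simp only [dP, norm_smul, mul_pow, Real.norm_eq_abs, sq_abs, PiLp.smul_apply, smul_eq_mul]
  field_simp

lemma rnd_smul {t : ℝ} (ht : t ≠ 0) (y v w : X) : rnd (t • y) v w = t⁻¹ ^ 2 * rnd y v w := by
  simp only [rnd, dT_smul ht, norm_smul, mul_pow, Real.norm_eq_abs, sq_abs]
  field_simp

lemma Sg_smul {t : ℝ} (ht : t ≠ 0) (a r : ℝ) (y : X) : Sg a r (t • y) = Sg a r y := by
  simp only [Sg, norm_smul, mul_pow, Real.norm_eq_abs, sq_abs, PiLp.smul_apply, smul_eq_mul]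
  rw [mul_div_mul_left _ _ (pow_ne_zero 2 ht)]

lemma tw_smul {t : ℝ} (ht : t ≠ 0) (om : ℝ) (y v : X) : tw om (t • y) v = tw om y v := by
  simp only [tw, dT_smul ht]
  congr 1
  ext i
  fin_cases i <;> simp <;> field_simp

/-- The Kerr metric on the slice is homogeneous of degree -2. -/
lemma kh_smul {t : ℝ} (ht : t ≠ 0) (M a r : ℝ) (y : X) (i j : Fin 3) :
    kh M a r (t • y) i j = t⁻¹ ^ 2 * kh M a r y i j := by
  simp only [kh, bl, tw_smul ht, dT_smul ht, dP_smul ht, rnd_smul ht, Sg_smul ht]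
  ring

variable {M a r0 s : ℝ}

/-- The Kerr data are uniformly positive. -/
lemma up_kerr (hs : DSm (kerr M a r0)) (hp : ∀ y ≠ 0, ((kerr M a r0).h y).PosDef) :
    ∃ c > 0, UP (kerr M a r0) c := by
  obtain ⟨c, c0, c1⟩ := up_compact hs hp (isCompact_sphere (0 : X) 1) fun y hy e => by
    rw [e] at hy
    simp at hy
  refine ⟨c, c0, fun y hy v => ?_⟩
  have n0 : ‖y‖ ≠ 0 := norm_ne_zero_iff.2 hy
  have h1 := c1 (‖y‖⁻¹ • y) (by simp [norm_smul, n0]) v
  refine h1.trans (le_of_eq ?_)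
  simp only [qf, kerr, Matrix.of_apply, kh_smul (inv_ne_zero n0), norm_smul, norm_inv, norm_norm,
    inv_mul_cancel₀ n0, inv_inv, Fin.sum_univ_three]
  ring

/-- All data are uniformly positive. -/
lemma up_all (hs : 0 < s) (hk : IsData M a r0 s (kerr M a r0)) (d : Dset M a r0 s) :
    ∃ c > 0, UP d.1 c := by
  obtain ⟨c, c0, c1⟩ := up_kerr hk.smooth fun y hy => (hk.pos y hy).1
  set P := (pm s 0 d.1 (kerr M a r0)).toReal with hP
  have P0 : 0 ≤ P := ENNReal.toReal_nonneg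
  have hd : pm s 0 d.1 (kerr M a r0) ≤ ENNReal.ofReal P := by
    rw [hP, ENNReal.ofReal_toReal (d.2.finite 0).ne]
  obtain ⟨L, hL⟩ := eventually_atTop.1
    ((tendsto_rpow_atTop hs).eventually (eventually_ge_atTop (6 * P / c)))
  obtain ⟨c', c0', c1'⟩ := up_compact (dsm d) (fun y hy => (d.2.pos y hy).1)
    (K := Metric.closedBall 0 (Real.exp L) \ Metric.ball 0 (Real.exp (-L)))
    ((isCompact_closedBall _ _).diff Metric.isOpen_ball) fun y hy e =>
      hy.2 (by rw [e]; exact Metric.mem_ball_self (Real.exp_pos _))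
  refine ⟨min (c / 2) c', by positivity, fun y hy v => ?_⟩
  have v0 : 0 ≤ ∑ i, v i ^ 2 := Finset.sum_nonneg fun _ _ => sq_nonneg _
  have n0 : 0 < ‖y‖ := norm_pos_iff.2 hy
  by_cases hl : L ≤ |Real.log ‖y‖|
  · have h1 : 6 * P / c ≤ √(1 + Real.log ‖y‖ ^ 2) ^ s :=
      hL _ (hl.trans (Real.abs_le_sqrt (by linarith)))
    have h2 := qf_close (A := d.1.h y) (B := (kerr M a r0).h y) (t := ‖y‖ ^ 2) (η := c / 6)
      (by positivity) (fun i j => by
        have h3 := h_close P0 hd hy i j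
        have h4 : 0 < √(1 + Real.log ‖y‖ ^ 2) ^ s := Real.rpow_pos_of_pos (rho_pos _) _
        rw [div_le_iff₀ c0] at h1
        refine le_of_mul_le_mul_left ?_ h4
        simp only [wt, add_zero] at h3
        nlinarith) v
    have h3 := c1 y hy v
    have h4 := mul_le_mul_of_nonneg_right (min_le_left (c / 2) c') v0
    linarith
  · have h1 := abs_lt.1 (not_le.1 hl)
    refine (mul_le_mul_of_nonneg_right (min_le_right _ _) v0).trans (c1' y ⟨?_, ?_⟩ v)
    · rw [mem_closedBall_zero_iff]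
      exact ((Real.log_lt_iff_lt_exp n0).1 h1.2).le
    · rw [mem_ball_zero_iff, not_lt]
      exact ((Real.lt_log_iff_exp_lt n0).1 h1.1).le

/-- The constraints pass to the limit. -/
theorem constr_lim {u : ℕ → Dat} {d : Dat} {y : X} (hy : y ≠ 0) (su : ∀ n, DSm (u n)) (sd : DSm d)
    (pu : ∀ n, ((u n).h y).det ≠ 0) (pd0 : (d.h y).det ≠ 0)
    (th : ∀ i j k, Tendsto (fun n => iteratedFDeriv ℝ k (fun z => (u n).h z i j) y) atTop
      (𝓝 (iteratedFDeriv ℝ k (fun z => d.h z i j) y)))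
    (tK : ∀ i j k, Tendsto (fun n => iteratedFDeriv ℝ k (fun z => (u n).K z i j) y) atTop
      (𝓝 (iteratedFDeriv ℝ k (fun z => d.K z i j) y))) :
    Tendsto (fun n => (u n).scal y + (u n).trK y ^ 2 - (u n).sqK y) atTop
      (𝓝 (d.scal y + d.trK y ^ 2 - d.sqK y)) ∧
    ∀ j, Tendsto (fun n => (u n).divK j y - pd j (u n).trK y) atTop
      (𝓝 (d.divK j y - pd j d.trK y)) := by
  have jh := fun i j => j1_of (fun n => (su n i j).1) (sd i j).1 hy (th i j)
  have jK := fun i j => (j1_of (fun n => (su n i j).2) (sd i j).2 hy (tK i j)).1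
  have ji := J1.minv (A := fun n => (u n).h) (B := d.h) (fun i j => (jh i j).1) pu pd0
  have jc : ∀ k i j, J1 y (fun n => (u n).chr k i j) (d.chr k i j) := fun k i j => by
    have := J1.sum Finset.univ fun l => ((ji k l).mul ((((jh j l).2 i).add ((jh i l).2 j)).sub
      ((jh i j).2 l))).mul (J1.const y 2⁻¹)
    simp only [← div_eq_mul_inv] at this
    exact this
  have jt : J1 y (fun n => (u n).trK) d.trK :=
    J1.sum Finset.univ fun i => J1.sum Finset.univ fun j => (ji i j).mul (jK i j)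
  refine ⟨(Tendsto.add ?_ (jt.t0.pow 2)).sub ?_, fun j => Tendsto.sub ?_ (jt.pd j)⟩
  · refine tendsto_finsetSum _ fun i _ => tendsto_finsetSum _ fun j _ => (ji i j).t0.mul ?_
    refine tendsto_finsetSum _ fun k _ => (((jc k i j).pd k).sub ((jc k k i).pd j)).add ?_
    exact tendsto_finsetSum _ fun l _ =>
      ((jc k k l).t0.mul (jc l i j).t0).sub ((jc k j l).t0.mul (jc l k i).t0)
  · exact tendsto_finsetSum _ fun i _ => tendsto_finsetSum _ fun j _ =>
      tendsto_finsetSum _ fun k _ => tendsto_finsetSum _ fun l _ =>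
        (((ji i k).t0.mul (ji j l).t0).mul (jK i j).t0).mul (jK k l).t0
  · refine tendsto_finsetSum _ fun i _ => tendsto_finsetSum _ fun k _ => (ji i k).t0.mul ?_
    exact ((jK k j).pd i).sub (tendsto_finsetSum _ fun l _ =>
      ((jc l i k).t0.mul (jK l j).t0).add ((jc l i j).t0.mul (jK k l).t0))

/-- Cauchy sequences of uniformly positive data converge. -/
theorem lim_data (hs : 0 ≤ s) (hk : DSm (kerr M a r0)) {c : ℝ} (hc : 0 < c)
    {u : ℕ → Dset M a r0 s} (hu : ∀ n, UP (u n).1 c)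
    (hC : ∀ (m : ℕ) (ε : ℝ), 0 < ε → ∃ N, ∀ n ≥ N, ∀ n' ≥ N,
      pm s m (u n).1 (u n').1 ≤ ENNReal.ofReal ε) :
    ∃ d : Dset M a r0 s, ∀ (m : ℕ) (ε : ℝ), 0 < ε → ∃ N, ∀ n ≥ N,
      pm s m (u n).1 d.1 ≤ ENNReal.ofReal ε := by
  have lh := fun i j => lim_fun (s := s) (fun n => (dsm (u n) i j).1) fun m ε hε =>
    (hC m ε hε).imp fun N hN n hn n' hn' => (pm_parts (hN n hn n' hn') i j).1
  have lK := fun i j => lim_fun (s := s) (fun n => (dsm (u n) i j).2) fun m ε hε =>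
    (hC m ε hε).imp fun N hN n hn n' hn' => (pm_parts (hN n hn n' hn') i j).2
  choose Gh sh th ch using lh
  choose GK sK tK cK using lK
  let d : Dat := ⟨fun y => Matrix.of fun i j => Gh i j y, fun y => Matrix.of fun i j => GK i j y⟩
  have sd : DSm d := fun i j => ⟨sh i j, sK i j⟩
  have conv : ∀ (m : ℕ) (ε : ℝ), 0 < ε → ∃ N, ∀ n ≥ N, pm s m (u n).1 d ≤ ENNReal.ofReal ε := by
    intro m ε hε
    have h7 : 0 < ε / 18 := by positivity
    have e : ∀ᶠ n in atTop, ∀ i j, wn s m (fun y => (u n).1.h y i j - d.h y i j) ≤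
        ENNReal.ofReal (ε / 18) ∧ wn s m (fun y => (u n).1.K y i j - d.K y i j) ≤
        ENNReal.ofReal (ε / 18) :=
      eventually_all.2 fun i => eventually_all.2 fun j =>
        (eventually_atTop.2 (ch i j m _ h7)).and (eventually_atTop.2 (cK i j m _ h7))
    obtain ⟨N, hN⟩ := eventually_atTop.1 e
    refine ⟨N, fun n hn => (pm_le_of h7.le (hN n hn)).trans (le_of_eq ?_)⟩
    congr 1
    ring
  have t0 : ∀ {F : ℕ → X → ℝ} {G : X → ℝ} {y : X}, Tendsto (fun n => iteratedFDeriv ℝ 0 (F n) y)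
      atTop (𝓝 (iteratedFDeriv ℝ 0 G y)) → Tendsto (fun n => F n y) atTop (𝓝 (G y)) := fun h => by
    have := ((continuousMultilinearCurryFin0 ℝ X ℝ).continuous.tendsto _).comp h
    simpa [Function.comp_def] using this
  have hpos : ∀ y ≠ 0, (d.h y).PosDef := by
    intro y hy
    obtain ⟨N, hN⟩ := conv 0 (c / 6) (by positivity)
    have h1 := hN N le_rfl
    rw [pm_comm] at h1
    refine ((hu N).near hs (by positivity) h1).pos (by linarith) hy ?_
    refine Matrix.IsSymm.ext fun i j => tendsto_nhds_unique (t0 (th j i 0 y hy)) ?_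
    exact (t0 (th i j 0 y hy)).congr fun n => ((symm_of ((u n).2.pos y hy).1).apply i j).symm
  have lim := fun y (hy : y ≠ 0) => constr_lim (u := fun n => (u n).1) hy (fun n => dsm (u n)) sd
    (fun n => ((u n).2.pos y hy).1.det_pos.ne') (hpos y hy).det_pos.ne'
    (fun i j k => th i j k y hy) (fun i j k => tK i j k y hy)
  refine ⟨⟨d, sd, fun y hy => ⟨hpos y hy, ?_⟩, fun m => ?_, fun y hy => ?_, fun y hy j => ?_⟩, conv⟩
  · refine Matrix.IsSymm.ext fun i j => tendsto_nhds_unique (t0 (tK j i 0 y hy)) ?_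
    exact (t0 (tK i j 0 y hy)).congr fun n => (((u n).2.pos y hy).2.apply i j).symm
  · obtain ⟨N, hN⟩ := conv m 1 one_pos
    have h1 := hN N le_rfl
    rw [pm_comm] at h1
    exact (pm_tri s m sd (dsm (u N)) hk).trans_lt (ENNReal.add_lt_top.2
      ⟨h1.trans_lt ENNReal.ofReal_lt_top, (u N).2.finite m⟩)
  · refine tendsto_nhds_unique (lim y hy).1 ?_
    simp only [(u _).2.hamilton y hy]
    exact tendsto_const_nhds
  · refine tendsto_nhds_unique ((lim y hy).2 j) ?_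
    simp only [(u _).2.momentum y hy j]
    exact tendsto_const_nhds

/-- Open subsets of small balls are Baire spaces. -/
theorem baire_ball (hs : 0 ≤ s) (hk : DSm (kerr M a r0)) (d0 : Dset M a r0 s) {c : ℝ} (hc : 0 < c)
    (h0 : UP d0.1 c) : BaireSpace (ball d0 0 (ENNReal.ofReal (c / 6))) := by
  let _ : PseudoEMetricSpace (Dset M a r0 s) :=
    PseudoEMetricSpace.ofEDistOfTopology ed ed_self ed_comm ed_tri ed_basis
  let C : Set (Dset M a r0 s) := {d | pm s 0 d.1 d0.1 ≤ ENNReal.ofReal (c / 6)}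
  have hC : CompleteSpace C := by
    refine EMetric.complete_of_cauchySeq_tendsto fun u hu => ?_
    obtain ⟨d, hd⟩ := lim_data hs hk (c := c - 3 * (c / 6)) (by linarith)
      (u := fun n => (u n).1) (fun n => h0.near hs (by positivity) (u n).2)
      (fun m ε hε => by
        obtain ⟨N, hN⟩ := EMetric.cauchySeq_iff.1 hu (min (ENNReal.ofReal ε) (2⁻¹ ^ m))
          (lt_min (ENNReal.ofReal_pos.2 hε) (pow_pos' m))
        exact ⟨N, fun n hn n' hn' => (pm_lt_of_ed (hN n hn n' hn')).le⟩)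
    have hdC : d ∈ C := by
      refine ENNReal.le_of_forall_pos_le_add fun ε hε _ => ?_
      obtain ⟨N, hN⟩ := hd 0 ε hε
      have h1 := pm_tri s 0 (dsm d) (dsm (u N).1) (dsm d0)
      rw [pm_comm s 0 d.1 (u N).1.1] at h1
      refine h1.trans ?_
      rw [add_comm]
      exact add_le_add (u N).2 ((hN N le_rfl).trans (by simp))
    refine ⟨⟨d, hdC⟩, tendsto_subtype_rng.2 (tendsto_iff_pm.2 fun m ε hε => ?_)⟩
    exact eventually_atTop.2 (hd m ε hε)
  have hB : BaireSpace C := inferInstance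
  have hsub : ball d0 0 (ENNReal.ofReal (c / 6)) ⊆ C := fun d hd =>
    le_of_lt (show pm s 0 d.1 d0.1 < _ from hd)
  exact (IsOpenEmbedding.inclusion hsub
    ((isOpen_ball' d0 0 _).preimage continuous_subtype_val)).baireSpace

/-- A space in which every point has an open Baire neighbourhood is a Baire space. -/
theorem baire_of_local {Y : Type} [TopologicalSpace Y]
    (h : ∀ x : Y, ∃ B : Set Y, IsOpen B ∧ x ∈ B ∧ BaireSpace B) : BaireSpace Y := by
  refine ⟨fun f ho hd => dense_iff_inter_open.2 fun W hW ⟨x, hx⟩ => ?_⟩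
  obtain ⟨B, hB, hxB, hb⟩ := h x
  have h1 : Dense (⋂ n, ((↑) : B → Y) ⁻¹' f n) :=
    dense_iInter_of_isOpen (fun n => (ho n).preimage continuous_subtype_val)
      fun n => (hd n).preimage hB.isOpenMap_subtype_val
  obtain ⟨z, z1, z2⟩ := h1.inter_open_nonempty (((↑) : B → Y) ⁻¹' W)
    (hW.preimage continuous_subtype_val) ⟨⟨x, hxB⟩, hx⟩
  exact ⟨z, z1, mem_iInter.2 fun n => mem_iInter.1 z2 n⟩

/-- **The space of data is a Baire space.** -/
theorem baire (hs : 0 < s) (hk : IsData M a r0 s (kerr M a r0)) : BaireSpace (Dset M a r0 s) := by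
  refine baire_of_local fun d => ?_
  obtain ⟨c, hc, h0⟩ := up_all hs hk d
  exact ⟨_, isOpen_ball' d 0 _, mem_ball_self' d 0 (ENNReal.ofReal_pos.2 (by positivity)),
    baire_ball hs.le hk.smooth d hc h0⟩

/-- In an open set of data, the complement of a meagre set is dense. -/
theorem dense_of_meagre (hs : 0 < s) {U : Set (Dset M a r0 s)} (hU : IsOpen U)
    (hk : ∃ d ∈ U, d.1 = kerr M a r0) {P : U → Prop} (h : IsMeagre {d : U | ¬ P d}) :
    Dense {d : U | P d} := by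
  obtain ⟨d, -, hd⟩ := hk
  have := baire hs (hd ▸ d.2)
  have : BaireSpace U := hU.isOpenEmbedding_subtypeVal.baireSpace
  refine dense_of_mem_residual ?_
  have e : {d : U | ¬ P d}ᶜ = {d : U | P d} := by
    ext d
    simp
  rw [← e]
  exact h

end Vale.Agent.P354T
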