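import Vale.Agent.P354I.Defs

/-!
The topology of the space of data: seminorms, balls, a distance, first countability.
-/

open scoped ContDiff ENNReal
open Set Filter Topology

namespace Vale.Agent.P354T

open Vale.Agent.P354I

/-- The weight of the j-th derivative. -/
noncomputable def wt (s : ℝ) (j : ℕ) (y : X) : ℝ := √(1 + Real.log ‖y‖ ^ 2) ^ s * ‖y‖ ^ (2 + j)

/-- Smooth off the origin. -/
def Sm (F : X → ℝ) : Prop := ContDiffOn ℝ ∞ F {0}ᶜ

lemma Sm.at {F : X → ℝ} (h : Sm F) {y : X} (hy : y ≠ 0) : ContDiffAt ℝ ∞ F y :=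
  ContDiffOn.contDiffAt h (isOpen_compl_singleton.mem_nhds hy)

lemma Sm.sub {F G : X → ℝ} (hF : Sm F) (hG : Sm G) : Sm fun y => F y - G y :=
  ContDiffOn.sub hF hG

lemma Sm.add {F G : X → ℝ} (hF : Sm F) (hG : Sm G) : Sm fun y => F y + G y :=
  ContDiffOn.add hF hG

lemma rho_pos (x : ℝ) : 0 < √(1 + x ^ 2) := Real.sqrt_pos.2 (by positivity)

lemma one_le_rho (x : ℝ) : 1 ≤ √(1 + x ^ 2) := Real.one_le_sqrt.2 (by nlinarith [sq_nonneg x])

lemma wt_pos (s : ℝ) (j : ℕ) {y : X} (hy : y ≠ 0) : 0 < wt s j y :=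
  mul_pos (Real.rpow_pos_of_pos (rho_pos _) _) (pow_pos (norm_pos_iff.2 hy) _)

lemma wt_nonneg (s : ℝ) (j : ℕ) (y : X) : 0 ≤ wt s j y :=
  mul_nonneg (Real.rpow_pos_of_pos (rho_pos _) _).le (by positivity)

lemma wt_cont (s : ℝ) (j : ℕ) : ContinuousOn (wt s j) {0}ᶜ := by
  have h1 : ContinuousOn (fun y : X => Real.log ‖y‖) {0}ᶜ :=
    continuous_norm.continuousOn.log fun y hy => norm_ne_zero_iff.2 hy
  refine ContinuousOn.mul (ContinuousOn.rpow_const ?_ fun y _ => Or.inl (rho_pos _).ne') ?_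
  · exact (continuousOn_const.add (h1.pow 2)).sqrt
  · exact (continuous_norm.pow _).continuousOn

/-- One term of wn. -/
noncomputable def w1 (s : ℝ) (j : ℕ) (F : X → ℝ) : ℝ≥0∞ :=
  ⨆ y : X, ⨆ _ : y ≠ 0, ENNReal.ofReal (wt s j y * ‖iteratedFDeriv ℝ j F y‖)

lemma wn_eq (s : ℝ) (m : ℕ) (F : X → ℝ) : wn s m F = ∑ j ∈ Finset.range (m + 1), w1 s j F := rfl

lemma le_w1 (s : ℝ) (j : ℕ) (F : X → ℝ) {y : X} (hy : y ≠ 0) :
    ENNReal.ofReal (wt s j y * ‖iteratedFDeriv ℝ j F y‖) ≤ w1 s j F :=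
  le_iSup₂_of_le (f := fun (y : X) (_ : y ≠ 0) =>
    ENNReal.ofReal (wt s j y * ‖iteratedFDeriv ℝ j F y‖)) y hy le_rfl

lemma iter_add {F G : X → ℝ} (hF : Sm F) (hG : Sm G) (j : ℕ) {y : X} (hy : y ≠ 0) :
    iteratedFDeriv ℝ j (fun y => F y + G y) y = iteratedFDeriv ℝ j F y + iteratedFDeriv ℝ j G y :=
  iteratedFDeriv_add_apply ((hF.at hy).of_le (by exact_mod_cast le_top))
    ((hG.at hy).of_le (by exact_mod_cast le_top))

lemma iter_sub {F G : X → ℝ} (hF : Sm F) (hG : Sm G) (j : ℕ) {y : X} (hy : y ≠ 0) :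
    iteratedFDeriv ℝ j (fun y => F y - G y) y = iteratedFDeriv ℝ j F y - iteratedFDeriv ℝ j G y :=
  iteratedFDeriv_sub_apply ((hF.at hy).of_le (by exact_mod_cast le_top))
    ((hG.at hy).of_le (by exact_mod_cast le_top))

lemma w1_add_le (s : ℝ) (j : ℕ) {F G : X → ℝ} (hF : Sm F) (hG : Sm G) :
    w1 s j (fun y => F y + G y) ≤ w1 s j F + w1 s j G := by
  refine iSup₂_le fun y hy => ?_
  refine le_trans ?_ (add_le_add (le_w1 s j F hy) (le_w1 s j G hy))
  refine le_trans (ENNReal.ofReal_le_ofReal ?_) ENNReal.ofReal_add_le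
  rw [iter_add hF hG j hy, ← mul_add]
  exact mul_le_mul_of_nonneg_left (norm_add_le _ _) (wt_nonneg s j y)

lemma w1_neg (s : ℝ) (j : ℕ) (F : X → ℝ) : w1 s j (fun y => -F y) = w1 s j F := by
  unfold w1
  refine iSup_congr fun y => iSup_congr fun _ => ?_
  have : iteratedFDeriv ℝ j (fun y => -F y) y = -iteratedFDeriv ℝ j F y := iteratedFDeriv_neg_apply
  rw [this, norm_neg]

lemma w1_zero (s : ℝ) (j : ℕ) : w1 s j (fun _ => 0) = 0 := by
  unfold w1
  simp

lemma w1_congr (s : ℝ) (j : ℕ) {F G : X → ℝ} (h : ∀ y ≠ 0, F y = G y) : w1 s j F = w1 s j G := by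
  unfold w1
  refine iSup_congr fun y => iSup_congr fun hy => ?_
  have : F =ᶠ[𝓝 y] G := by
    filter_upwards [isOpen_compl_singleton.mem_nhds hy] with z hz using h z hz
  rw [(this.iteratedFDeriv ℝ j).eq_of_nhds]

lemma wn_add_le (s : ℝ) (m : ℕ) {F G : X → ℝ} (hF : Sm F) (hG : Sm G) :
    wn s m (fun y => F y + G y) ≤ wn s m F + wn s m G := by
  rw [wn_eq, wn_eq, wn_eq, ← Finset.sum_add_distrib]
  exact Finset.sum_le_sum fun j _ => w1_add_le s j hF hG

lemma wn_neg (s : ℝ) (m : ℕ) (F : X → ℝ) : wn s m (fun y => -F y) = wn s m F := by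
  rw [wn_eq, wn_eq]
  exact Finset.sum_congr rfl fun j _ => w1_neg s j F

lemma wn_zero (s : ℝ) (m : ℕ) : wn s m (fun _ => 0) = 0 := by
  rw [wn_eq]
  exact Finset.sum_eq_zero fun j _ => w1_zero s j

lemma wn_congr (s : ℝ) (m : ℕ) {F G : X → ℝ} (h : ∀ y ≠ 0, F y = G y) : wn s m F = wn s m G := by
  rw [wn_eq, wn_eq]
  exact Finset.sum_congr rfl fun j _ => w1_congr s j h

lemma wn_mono (s : ℝ) {m m' : ℕ} (h : m ≤ m') (F : X → ℝ) : wn s m F ≤ wn s m' F := by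
  rw [wn_eq, wn_eq]
  exact Finset.sum_le_sum_of_subset (Finset.range_mono (by omega))

lemma wn_sub_comm (s : ℝ) (m : ℕ) (F G : X → ℝ) :
    wn s m (fun y => F y - G y) = wn s m (fun y => G y - F y) := by
  rw [← wn_neg]
  simp only [neg_sub]

lemma wn_tri (s : ℝ) (m : ℕ) {F G H : X → ℝ} (hF : Sm F) (hG : Sm G) (hH : Sm H) :
    wn s m (fun y => F y - H y) ≤ wn s m (fun y => F y - G y) + wn s m (fun y => G y - H y) := by
  refine le_trans (le_of_eq ?_) (wn_add_le s m (hF.sub hG) (hG.sub hH))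
  simp only [sub_add_sub_cancel]

lemma w1_le_wn (s : ℝ) {j m : ℕ} (h : j ≤ m) (F : X → ℝ) : w1 s j F ≤ wn s m F := by
  rw [wn_eq]
  exact Finset.single_le_sum (f := fun j => w1 s j F) (fun _ _ => zero_le)
    (Finset.mem_range.2 (by omega))

/-- Pointwise bound from wn. -/
lemma le_of_wn {s : ℝ} {j m : ℕ} (h : j ≤ m) {F : X → ℝ} {η : ℝ} (hη : 0 ≤ η)
    (hF : wn s m F ≤ ENNReal.ofReal η) {y : X} (hy : y ≠ 0) :
    wt s j y * ‖iteratedFDeriv ℝ j F y‖ ≤ η :=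
  (ENNReal.ofReal_le_ofReal_iff hη).1 ((le_w1 s j F hy).trans ((w1_le_wn s h F).trans hF))

/-- wn from pointwise bounds. -/
lemma wn_le_of {s : ℝ} {m : ℕ} {F : X → ℝ} {η : ℝ}
    (hF : ∀ j ≤ m, ∀ y ≠ 0, wt s j y * ‖iteratedFDeriv ℝ j F y‖ ≤ η) :
    wn s m F ≤ ENNReal.ofReal ((m + 1) * η) := by
  rw [wn_eq]
  calc ∑ j ∈ Finset.range (m + 1), w1 s j F
      ≤ ∑ j ∈ Finset.range (m + 1), ENNReal.ofReal η :=
        Finset.sum_le_sum fun j hj => iSup₂_le fun y hy =>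
          ENNReal.ofReal_le_ofReal (hF j (by have := Finset.mem_range.1 hj; omega) y hy)
    _ = ENNReal.ofReal ((m + 1) * η) := by
        rw [Finset.sum_const, Finset.card_range, nsmul_eq_mul, ENNReal.ofReal_mul (by positivity)]
        congr 1
        rw [show ((m : ℝ) + 1) = ((m + 1 : ℕ) : ℝ) by push_cast; ring, ENNReal.ofReal_natCast]

/-- Smooth data. -/
def DSm (d : Dat) : Prop := ∀ i j, Sm (fun y => d.h y i j) ∧ Sm (fun y => d.K y i j)

lemma pm_self (s : ℝ) (m : ℕ) (d : Dat) : pm s m d d = 0 := by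
  simp [pm, wn_zero]

lemma pm_comm (s : ℝ) (m : ℕ) (d d' : Dat) : pm s m d d' = pm s m d' d := by
  unfold pm
  refine Finset.sum_congr rfl fun i _ => Finset.sum_congr rfl fun j _ => ?_
  rw [wn_sub_comm s m (fun y => d.h y i j), wn_sub_comm s m (fun y => d.K y i j)]

lemma pm_tri (s : ℝ) (m : ℕ) {d d' d'' : Dat} (h : DSm d) (h' : DSm d') (h'' : DSm d'') :
    pm s m d d'' ≤ pm s m d d' + pm s m d' d'' := by
  unfold pm
  rw [← Finset.sum_add_distrib]
  refine Finset.sum_le_sum fun i _ => ?_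
  rw [← Finset.sum_add_distrib]
  refine Finset.sum_le_sum fun j _ => ?_
  rw [add_add_add_comm]
  exact add_le_add (wn_tri s m (h i j).1 (h' i j).1 (h'' i j).1)
    (wn_tri s m (h i j).2 (h' i j).2 (h'' i j).2)

lemma pm_mono (s : ℝ) {m m' : ℕ} (h : m ≤ m') (d d' : Dat) : pm s m d d' ≤ pm s m' d d' :=
  Finset.sum_le_sum fun _ _ => Finset.sum_le_sum fun _ _ =>
    add_le_add (wn_mono _ h _) (wn_mono _ h _)

/-- The parts of pm. -/
lemma pm_parts {s : ℝ} {m : ℕ} {d d' : Dat} {η : ℝ≥0∞} (h : pm s m d d' ≤ η) (i j : Fin 3) :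
    wn s m (fun y => d.h y i j - d'.h y i j) ≤ η ∧
      wn s m (fun y => d.K y i j - d'.K y i j) ≤ η := by
  have h1 : wn s m (fun y => d.h y i j - d'.h y i j) + wn s m (fun y => d.K y i j - d'.K y i j) ≤
      η := by
    refine le_trans ?_ h
    refine le_trans ?_ (Finset.single_le_sum (f := fun i => ∑ j,
      (wn s m (fun y => d.h y i j - d'.h y i j) + wn s m (fun y => d.K y i j - d'.K y i j)))
      (fun _ _ => zero_le) (Finset.mem_univ i))
    exact Finset.single_le_sum (f := fun j =>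
      wn s m (fun y => d.h y i j - d'.h y i j) + wn s m (fun y => d.K y i j - d'.K y i j))
      (fun _ _ => zero_le) (Finset.mem_univ j)
  exact ⟨le_self_add.trans h1, le_add_self.trans h1⟩

/-- pm from its parts. -/
lemma pm_le_of {s : ℝ} {m : ℕ} {d d' : Dat} {η : ℝ} (hη : 0 ≤ η)
    (h : ∀ i j, wn s m (fun y => d.h y i j - d'.h y i j) ≤ ENNReal.ofReal η ∧
      wn s m (fun y => d.K y i j - d'.K y i j) ≤ ENNReal.ofReal η) :
    pm s m d d' ≤ ENNReal.ofReal (18 * η) := by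
  calc pm s m d d' ≤ ∑ _i : Fin 3, ∑ _j : Fin 3, (ENNReal.ofReal η + ENNReal.ofReal η) :=
        Finset.sum_le_sum fun i _ => Finset.sum_le_sum fun j _ => add_le_add (h i j).1 (h i j).2
    _ = ENNReal.ofReal (18 * η) := by
        simp only [Fin.sum_univ_three]
        repeat rw [← ENNReal.ofReal_add (by positivity) (by positivity)]
        congr 1
        ring

variable {M a r0 s : ℝ}

lemma dsm (d : Dset M a r0 s) : DSm d.1 := d.2.smooth

/-- The ball of radius ε for p_m. -/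
def ball (d : Dset M a r0 s) (m : ℕ) (ε : ℝ≥0∞) : Set (Dset M a r0 s) :=
  {d' | pm s m d'.1 d.1 < ε}

lemma isOpen_ball' (d : Dset M a r0 s) (m : ℕ) (ε : ℝ≥0∞) : IsOpen (ball d m ε) :=
  TopologicalSpace.isOpen_generateFrom_of_mem ⟨d, m, ε, rfl⟩

lemma mem_ball_self' (d : Dset M a r0 s) (m : ℕ) {ε : ℝ≥0∞} (h : 0 < ε) : d ∈ ball d m ε := by
  show pm s m d.1 d.1 < ε
  rwa [pm_self]

lemma ball_mem_nhds (d : Dset M a r0 s) (m : ℕ) {ε : ℝ≥0∞} (h : 0 < ε) : ball d m ε ∈ 𝓝 d :=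
  (isOpen_ball' d m ε).mem_nhds (mem_ball_self' d m h)

lemma isOpen_iff_ball {S : Set (Dset M a r0 s)} :
    IsOpen S ↔ ∀ d ∈ S, ∃ m ε, 0 < ε ∧ ball d m ε ⊆ S := by
  constructor
  · intro h
    induction h with
    | basic t ht =>
      obtain ⟨d0, m, ε, rfl⟩ := ht
      intro d hd
      have hd' : pm s m d.1 d0.1 < ε := hd
      obtain ⟨r, hr0, hr⟩ := ENNReal.lt_iff_exists_add_pos_lt.1 hd'
      refine ⟨m, r, by exact_mod_cast hr0, fun d' h' => ?_⟩
      have h1 : pm s m d'.1 d.1 < r := h'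
      refine (pm_tri s m (dsm d') (dsm d) (dsm d0)).trans_lt (lt_of_le_of_lt ?_ hr)
      rw [add_comm]
      exact add_le_add le_rfl h1.le
    | univ => exact fun d _ => ⟨0, 1, one_pos, subset_univ _⟩
    | inter t t' _ _ i1 i2 =>
      intro d hd
      obtain ⟨m, ε, h0, h1⟩ := i1 d hd.1
      obtain ⟨m', ε', h0', h1'⟩ := i2 d hd.2
      refine ⟨max m m', min ε ε', lt_min h0 h0', fun d' h' => ⟨h1 ?_, h1' ?_⟩⟩
      · exact ((pm_mono s (le_max_left _ _) _ _).trans_lt h').trans_le (min_le_left _ _)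
      · exact ((pm_mono s (le_max_right _ _) _ _).trans_lt h').trans_le (min_le_right _ _)
    | sUnion T _ i =>
      rintro d ⟨t, ht, hd⟩
      obtain ⟨m, ε, h0, h1⟩ := i t ht d hd
      exact ⟨m, ε, h0, h1.trans (subset_sUnion_of_mem ht)⟩
  · intro h
    refine isOpen_iff_mem_nhds.2 fun d hd => ?_
    obtain ⟨m, ε, h0, h1⟩ := h d hd
    exact mem_of_superset (ball_mem_nhds d m h0) h1

lemma exists_real_lt {ε : ℝ≥0∞} (h : 0 < ε) : ∃ η : ℝ, 0 < η ∧ ENNReal.ofReal η < ε := by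
  obtain ⟨η, -, h1, h2⟩ := ENNReal.lt_iff_exists_real_btwn.1 h
  exact ⟨η, ENNReal.ofReal_pos.1 h1, h2⟩

/-- Neighbourhoods contain closed balls of real radius. -/
lemma mem_nhds_iff_pm {d : Dset M a r0 s} {S : Set (Dset M a r0 s)} :
    S ∈ 𝓝 d ↔ ∃ (m : ℕ) (η : ℝ), 0 < η ∧
      ∀ d' : Dset M a r0 s, pm s m d'.1 d.1 ≤ ENNReal.ofReal η → d' ∈ S := by
  constructor
  · intro h
    obtain ⟨t, hts, ht, hd⟩ := mem_nhds_iff.1 h
    obtain ⟨m, ε, hε, hb⟩ := isOpen_iff_ball.1 ht d hd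
    obtain ⟨η, h0, h1⟩ := exists_real_lt hε
    exact ⟨m, η, h0, fun d' h' => hts (hb (h'.trans_lt h1))⟩
  · rintro ⟨m, η, h0, h1⟩
    exact mem_of_superset (ball_mem_nhds d m (ENNReal.ofReal_pos.2 h0)) fun d' h' =>
      h1 d' (le_of_lt h')

/-- Convergence in the space of data. -/
lemma tendsto_iff_pm {ι : Type} {l : Filter ι} {u : ι → Dset M a r0 s} {d : Dset M a r0 s} :
    Tendsto u l (𝓝 d) ↔
      ∀ (m : ℕ) (η : ℝ), 0 < η → ∀ᶠ n in l, pm s m (u n).1 d.1 ≤ ENNReal.ofReal η := by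
  constructor
  · intro h m η h0
    filter_upwards [h (ball_mem_nhds d m (ENNReal.ofReal_pos.2 h0))] with n hn using le_of_lt hn
  · intro h S hS
    obtain ⟨m, η, h0, h1⟩ := mem_nhds_iff_pm.1 hS
    exact mem_map.2 ((h m η h0).mono fun n hn => h1 _ hn)

/-- A distance on the space of data. -/
noncomputable def ed (d d' : Dset M a r0 s) : ℝ≥0∞ := ⨆ m : ℕ, min (pm s m d.1 d'.1) (2⁻¹ ^ m)

theorem ed_self (d : Dset M a r0 s) : ed d d = 0 := by simp [ed, pm_self]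

theorem ed_comm (d d' : Dset M a r0 s) : ed d d' = ed d' d := by simp only [ed, pm_comm s _ d.1]

theorem ed_tri (d d' d'' : Dset M a r0 s) : ed d d'' ≤ ed d d' + ed d' d'' := by
  refine iSup_le fun m => ?_
  have h1 : min (pm s m d.1 d'.1) (2⁻¹ ^ m) ≤ ed d d' :=
    le_iSup (fun m : ℕ => min (pm s m d.1 d'.1) (2⁻¹ ^ m)) m
  have h2 : min (pm s m d'.1 d''.1) (2⁻¹ ^ m) ≤ ed d' d'' :=
    le_iSup (fun m : ℕ => min (pm s m d'.1 d''.1) (2⁻¹ ^ m)) m
  refine le_trans ?_ (add_le_add h1 h2)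
  have h3 := pm_tri s m (dsm d) (dsm d') (dsm d'')
  rcases le_total (pm s m d.1 d'.1) (2⁻¹ ^ m) with x | x
  · rcases le_total (pm s m d'.1 d''.1) (2⁻¹ ^ m) with b | b
    · rw [min_eq_left x, min_eq_left b]
      exact (min_le_left _ _).trans h3
    · rw [min_eq_right b]
      exact (min_le_right _ _).trans le_add_self
  · rw [min_eq_right x]
    exact (min_le_right _ _).trans le_self_add

theorem pm_lt_of_ed {d d' : Dset M a r0 s} {m : ℕ} {ε : ℝ≥0∞} (h : ed d d' < min ε (2⁻¹ ^ m)) :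
    pm s m d.1 d'.1 < ε := by
  have h1 : min (pm s m d.1 d'.1) (2⁻¹ ^ m) < min ε (2⁻¹ ^ m) :=
    (le_iSup (fun m : ℕ => min (pm s m d.1 d'.1) (2⁻¹ ^ m)) m).trans_lt h
  rcases min_lt_iff.1 h1 with x | x
  · exact x.trans_le (min_le_left _ _)
  · exact absurd (x.trans_le (min_le_right _ _)) (lt_irrefl _)

theorem ed_le (d d' : Dset M a r0 s) (m : ℕ) : ed d d' ≤ max (pm s m d.1 d'.1) (2⁻¹ ^ m) := by
  refine iSup_le fun k => ?_
  rcases le_total k m with x | x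
  · exact (min_le_left _ _).trans ((pm_mono s x _ _).trans (le_max_left _ _))
  · refine (min_le_right _ _).trans (le_trans ?_ (le_max_right _ _))
    exact pow_le_pow_right_of_le_one' (ENNReal.inv_le_one.2 one_le_two) x

theorem pow_pos' (m : ℕ) : (0 : ℝ≥0∞) < 2⁻¹ ^ m :=
  ENNReal.pow_pos (ENNReal.inv_pos.2 ENNReal.ofNat_ne_top) m

theorem ed_basis (d : Dset M a r0 s) :
    (𝓝 d).HasBasis (fun c => 0 < c) fun c => {d' | ed d d' < c} := by
  refine ⟨fun S => ⟨fun hs => ?_, fun ⟨c, hc, hs⟩ => ?_⟩⟩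
  · obtain ⟨t, hts, ht, hd⟩ := mem_nhds_iff.1 hs
    obtain ⟨m, ε, hε, hb⟩ := isOpen_iff_ball.1 ht d hd
    refine ⟨min ε (2⁻¹ ^ m), lt_min hε (pow_pos' m), fun d' hd' => hts (hb ?_)⟩
    show pm s m d'.1 d.1 < ε
    rw [pm_comm]
    exact pm_lt_of_ed hd'
  · obtain ⟨m, hm⟩ := ENNReal.exists_inv_two_pow_lt hc.ne'
    refine mem_of_superset (ball_mem_nhds d m hc) fun d' hd' => hs ?_
    have h1 : pm s m d'.1 d.1 < c := hd'
    rw [pm_comm] at h1
    exact (ed_le d d' m).trans_lt (max_lt h1 hm)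

/-- The space of data is first countable. -/
theorem firstCountable : FirstCountableTopology (Dset M a r0 s) := by
  let _ : PseudoEMetricSpace (Dset M a r0 s) :=
    PseudoEMetricSpace.ofEDistOfTopology ed ed_self ed_comm ed_tri ed_basis
  infer_instance

/-- Subsets of the space of data are sequential spaces. -/
theorem sequential (U : Set (Dset M a r0 s)) : SequentialSpace U := by
  have := firstCountable (M := M) (a := a) (r0 := r0) (s := s)
  infer_instance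

end Vale.Agent.P354T
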