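import Vale.Agent.P354T.Basic

/-!
Limits of Cauchy sequences of smooth functions, and convergence of first order jets.
-/

open scoped ContDiff ENNReal
open Set Filter Topology

namespace Vale.Agent.P354T

open Vale.Agent.P354I

/-- Limits of sequences that are Cauchy for all weighted norms. -/
theorem lim_fun {s : ℝ} {F : ℕ → X → ℝ} (hF : ∀ n, Sm (F n))
    (hC : ∀ (m : ℕ) (ε : ℝ), 0 < ε → ∃ N, ∀ n ≥ N, ∀ n' ≥ N,
      wn s m (fun y => F n y - F n' y) ≤ ENNReal.ofReal ε) :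
    ∃ G, Sm G ∧ (∀ j, ∀ y ≠ 0, Tendsto (fun n => iteratedFDeriv ℝ j (F n) y) atTop
        (𝓝 (iteratedFDeriv ℝ j G y))) ∧
      ∀ (m : ℕ) (ε : ℝ), 0 < ε → ∃ N, ∀ n ≥ N,
        wn s m (fun y => F n y - G y) ≤ ENNReal.ofReal ε := by
  have hp : ∀ (m : ℕ) (ε : ℝ), 0 < ε → ∃ N, ∀ n ≥ N, ∀ n' ≥ N, ∀ j ≤ m, ∀ y ≠ 0,
      wt s j y * ‖iteratedFDeriv ℝ j (F n) y - iteratedFDeriv ℝ j (F n') y‖ ≤ ε := by
    intro m ε hε
    obtain ⟨N, hN⟩ := hC m ε hε
    refine ⟨N, fun n hn n' hn' j hj y hy => ?_⟩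
    rw [← iter_sub (hF n) (hF n') j hy]
    exact le_of_wn hj hε.le (hN n hn n' hn') hy
  let g : X → FormalMultilinearSeries ℝ X ℝ := fun y j =>
    limUnder atTop fun n => iteratedFDeriv ℝ j (F n) y
  have hg : ∀ j, ∀ y ≠ 0, Tendsto (fun n => iteratedFDeriv ℝ j (F n) y) atTop (𝓝 (g y j)) := by
    intro j y hy
    refine CauchySeq.tendsto_limUnder (Metric.cauchySeq_iff.2 fun ε hε => ?_)
    obtain ⟨N, hN⟩ := hp j (wt s j y * (ε / 2)) (mul_pos (wt_pos s j hy) (by positivity))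
    refine ⟨N, fun n hn n' hn' => ?_⟩
    have := le_of_mul_le_mul_left (hN n hn n' hn' j le_rfl y hy) (wt_pos s j hy)
    rw [dist_eq_norm]
    linarith
  have hq : ∀ (m : ℕ) (ε : ℝ), 0 < ε → ∃ N, ∀ n ≥ N, ∀ j ≤ m, ∀ y ≠ 0,
      wt s j y * ‖iteratedFDeriv ℝ j (F n) y - g y j‖ ≤ ε := by
    intro m ε hε
    obtain ⟨N, hN⟩ := hp m ε hε
    refine ⟨N, fun n hn j hj y hy => ?_⟩
    refine le_of_tendsto (((tendsto_const_nhds.sub (hg j y hy)).norm).const_mul _) ?_
    filter_upwards [eventually_ge_atTop N] with n' hn' using hN n hn n' hn' j hj y hy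
  have hd : ∀ j, ∀ y ≠ 0, HasFDerivAt (fun z => g z j) (g y (j + 1)).curryLeft y := by
    intro j y hy
    have hr : 0 < ‖y‖ / 2 := half_pos (norm_pos_iff.2 hy)
    have hb : ∀ z ∈ Metric.closedBall y (‖y‖ / 2), z ≠ 0 := by
      rintro z hz rfl
      rw [Metric.mem_closedBall, dist_zero_left] at hz
      linarith
    obtain ⟨c, hc0, hc1⟩ := (isCompact_closedBall y (‖y‖ / 2)).exists_forall_le'
      ((wt_cont s (j + 1)).mono fun z hz => hb z hz) (a := 0) fun z hz => wt_pos s _ (hb z hz)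
    refine hasFDerivAt_of_tendstoUniformlyOn (l := atTop) (s := Metric.ball y (‖y‖ / 2))
      (f := fun n => iteratedFDeriv ℝ j (F n))
      (f' := fun n z => (iteratedFDeriv ℝ (j + 1) (F n) z).curryLeft)
      (g' := fun z => (g z (j + 1)).curryLeft)
      Metric.isOpen_ball ?_ (fun n z hz => ?_)
      (fun z hz => hg j z (hb z (Metric.ball_subset_closedBall hz))) (Metric.mem_ball_self hr)
    · rw [Metric.tendstoUniformlyOn_iff]
      intro ε hε
      obtain ⟨N, hN⟩ := hq (j + 1) (c * (ε / 2)) (by positivity)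
      filter_upwards [eventually_ge_atTop N] with n hn z hz
      have hz' := Metric.ball_subset_closedBall hz
      have h1 := hN n hn (j + 1) le_rfl z (hb z hz')
      have h2 := mul_le_mul_of_nonneg_right (hc1 z hz')
        (norm_nonneg (iteratedFDeriv ℝ (j + 1) (F n) z - g z (j + 1)))
      have h3 := le_of_mul_le_mul_left (h2.trans h1) hc0
      have h4 : dist (g z (j + 1)).curryLeft (iteratedFDeriv ℝ (j + 1) (F n) z).curryLeft =
          dist (g z (j + 1)) (iteratedFDeriv ℝ (j + 1) (F n) z) :=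
        (continuousMultilinearCurryLeftEquiv ℝ (fun _ : Fin (j + 1) => X) ℝ).dist_map _ _
      rw [h4, dist_comm, dist_eq_norm]
      linarith
    · exact (((hF n).at (hb z (Metric.ball_subset_closedBall hz))).differentiableAt_iteratedFDeriv
        (m := j) (by exact_mod_cast ENat.natCast_lt_top j)).hasFDerivAt
  let G : X → ℝ := fun y => (g y 0).curry0
  have hT : HasFTaylorSeriesUpToOn ∞ G g {0}ᶜ :=
    (hasFTaylorSeriesUpToOn_top_iff' le_rfl).2
      ⟨fun _ _ => rfl, fun m y hy => (hd m y hy).hasFDerivWithinAt⟩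
  have hG : Sm G := hT.contDiffOn
  have he : ∀ j, ∀ y ≠ 0, iteratedFDeriv ℝ j G y = g y j := by
    intro j y hy
    rw [hT.eq_iteratedFDerivWithin_of_uniqueDiffOn (m := j) (by exact_mod_cast le_top)
      isOpen_compl_singleton.uniqueDiffOn hy,
      iteratedFDerivWithin_of_isOpen j isOpen_compl_singleton hy]
  refine ⟨G, hG, fun j y hy => by rw [he j y hy]; exact hg j y hy, fun m ε hε => ?_⟩
  obtain ⟨N, hN⟩ := hq m (ε / (m + 1)) (by positivity)
  refine ⟨N, fun n hn => (wn_le_of (η := ε / (m + 1)) fun j hj y hy => ?_).trans (le_of_eq ?_)⟩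
  · rw [iter_sub (hF n) hG j hy, he j y hy]
    exact hN n hn j hj y hy
  · congr 1
    field_simp

/-- The first order jets of F n at y converge to the one of G. -/
structure J1 (y : X) (F : ℕ → X → ℝ) (G : X → ℝ) : Prop where
  dF : ∀ n, DifferentiableAt ℝ (F n) y
  dG : DifferentiableAt ℝ G y
  t0 : Tendsto (fun n => F n y) atTop (𝓝 (G y))
  t1 : Tendsto (fun n => fderiv ℝ (F n) y) atTop (𝓝 (fderiv ℝ G y))

variable {y : X} {F F' : ℕ → X → ℝ} {G G' : X → ℝ}

theorem J1.pd (h : J1 y F G) (i : Fin 3) :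
    Tendsto (fun n => pd i (F n) y) atTop (𝓝 (pd i G y)) :=
  ((ContinuousLinearMap.apply ℝ ℝ (ee i)).continuous.tendsto _).comp h.t1

theorem J1.const (y : X) (c : ℝ) : J1 y (fun _ _ => c) (fun _ => c) :=
  ⟨fun _ => differentiableAt_const c, differentiableAt_const c, tendsto_const_nhds,
    tendsto_const_nhds⟩

theorem J1.add (h : J1 y F G) (h' : J1 y F' G') :
    J1 y (fun n z => F n z + F' n z) (fun z => G z + G' z) := by
  refine ⟨fun n => (h.dF n).add (h'.dF n), h.dG.add h'.dG, h.t0.add h'.t0, ?_⟩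
  simp only [fderiv_fun_add (h.dF _) (h'.dF _), fderiv_fun_add h.dG h'.dG]
  exact h.t1.add h'.t1

theorem J1.sub (h : J1 y F G) (h' : J1 y F' G') :
    J1 y (fun n z => F n z - F' n z) (fun z => G z - G' z) := by
  refine ⟨fun n => (h.dF n).sub (h'.dF n), h.dG.sub h'.dG, h.t0.sub h'.t0, ?_⟩
  simp only [fderiv_fun_sub (h.dF _) (h'.dF _), fderiv_fun_sub h.dG h'.dG]
  exact h.t1.sub h'.t1

theorem J1.mul (h : J1 y F G) (h' : J1 y F' G') :
    J1 y (fun n z => F n z * F' n z) (fun z => G z * G' z) := by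
  refine ⟨fun n => (h.dF n).mul (h'.dF n), h.dG.mul h'.dG, h.t0.mul h'.t0, ?_⟩
  simp only [fderiv_fun_mul (h.dF _) (h'.dF _), fderiv_fun_mul h.dG h'.dG]
  exact (h.t0.smul h'.t1).add (h'.t0.smul h.t1)

theorem J1.inv (h : J1 y F G) (h0 : ∀ n, F n y ≠ 0) (h1 : G y ≠ 0) :
    J1 y (fun n z => (F n z)⁻¹) (fun z => (G z)⁻¹) := by
  have e : ∀ {f : X → ℝ}, DifferentiableAt ℝ f y → f y ≠ 0 →
      fderiv ℝ (fun z => (f z)⁻¹) y = (-(f y ^ 2)⁻¹) • fderiv ℝ f y := fun hf h0 =>
    ((hasDerivAt_inv h0).comp_hasFDerivAt y hf.hasFDerivAt).fderiv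
  refine ⟨fun n => (h.dF n).inv (h0 n), h.dG.inv h1, h.t0.inv₀ h1, ?_⟩
  simp only [e (h.dF _) (h0 _), e h.dG h1]
  exact ((h.t0.pow 2).inv₀ (pow_ne_zero 2 h1)).neg.smul h.t1

theorem J1.sum {ι : Type} (S : Finset ι) {F : ι → ℕ → X → ℝ} {G : ι → X → ℝ}
    (h : ∀ i, J1 y (F i) (G i)) : J1 y (fun n z => ∑ i ∈ S, F i n z) (fun z => ∑ i ∈ S, G i z) := by
  classical
  induction S using Finset.induction_on with
  | empty => simpa using J1.const y 0
  | insert i S hi ih => simpa only [Finset.sum_insert hi] using (h i).add ih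

theorem J1.prod {ι : Type} (S : Finset ι) {F : ι → ℕ → X → ℝ} {G : ι → X → ℝ}
    (h : ∀ i, J1 y (F i) (G i)) : J1 y (fun n z => ∏ i ∈ S, F i n z) (fun z => ∏ i ∈ S, G i z) := by
  classical
  induction S using Finset.induction_on with
  | empty => simpa using J1.const y 1
  | insert i S hi ih => simpa only [Finset.prod_insert hi] using (h i).mul ih

theorem J1.det {A : ℕ → X → Matrix (Fin 3) (Fin 3) ℝ} {B : X → Matrix (Fin 3) (Fin 3) ℝ}
    (h : ∀ i j, J1 y (fun n z => A n z i j) (fun z => B z i j)) :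
    J1 y (fun n z => (A n z).det) (fun z => (B z).det) := by
  simp only [Matrix.det_apply']
  exact J1.sum _ fun σ => (J1.const y _).mul (J1.prod _ fun i => h _ _)

theorem J1.minv {A : ℕ → X → Matrix (Fin 3) (Fin 3) ℝ} {B : X → Matrix (Fin 3) (Fin 3) ℝ}
    (h : ∀ i j, J1 y (fun n z => A n z i j) (fun z => B z i j)) (h0 : ∀ n, (A n y).det ≠ 0)
    (h1 : (B y).det ≠ 0) (i j : Fin 3) :
    J1 y (fun n z => (A n z)⁻¹ i j) (fun z => (B z)⁻¹ i j) := by
  simp only [Matrix.inv_def, Ring.inverse_eq_inv', Matrix.smul_apply, smul_eq_mul,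
    Matrix.adjugate_apply]
  refine ((J1.det h).inv h0 h1).mul (J1.det fun k l => ?_)
  simp only [Matrix.updateRow_apply]
  by_cases c : k = j
  · simp only [if_pos c]
    exact J1.const y _
  · simp only [if_neg c]
    exact h k l

/-- The jets of a function and of its first derivatives converge. -/
theorem j1_of {F : ℕ → X → ℝ} {G : X → ℝ} (hF : ∀ n, Sm (F n)) (hG : Sm G) (hy : y ≠ 0)
    (h : ∀ j, Tendsto (fun n => iteratedFDeriv ℝ j (F n) y) atTop (𝓝 (iteratedFDeriv ℝ j G y))) :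
    J1 y F G ∧ ∀ i, J1 y (fun n => pd i (F n)) (pd i G) := by
  have d1 : ∀ {f : X → ℝ}, Sm f → DifferentiableAt ℝ (fderiv ℝ f) y := fun hf =>
    ((hf.at hy).fderiv_right (m := ∞) le_rfl).differentiableAt (by simp)
  have e1 : ∀ f : X → ℝ, fderiv ℝ f y =
      continuousMultilinearCurryFin1 ℝ X ℝ (iteratedFDeriv ℝ 1 f y) := fun f => by
    ext v
    simp
  have t1 : Tendsto (fun n => fderiv ℝ (F n) y) atTop (𝓝 (fderiv ℝ G y)) := by
    simp only [e1]
    exact ((continuousMultilinearCurryFin1 ℝ X ℝ).continuous.tendsto _).comp (h 1)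
  refine ⟨⟨fun n => ((hF n).at hy).differentiableAt (by simp), (hG.at hy).differentiableAt (by simp),
    ?_, t1⟩, fun i => ⟨fun n => (d1 (hF n)).clm_apply (differentiableAt_const _),
    (d1 hG).clm_apply (differentiableAt_const _),
    ((ContinuousLinearMap.apply ℝ ℝ (ee i)).continuous.tendsto _).comp t1, ?_⟩⟩
  · have := ((continuousMultilinearCurryFin0 ℝ X ℝ).continuous.tendsto _).comp (h 0)
    simpa [Function.comp_def] using this
  · have e2 : ∀ {f : X → ℝ}, Sm f → ∀ v, fderiv ℝ (pd i f) y v =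
        iteratedFDeriv ℝ 2 f y ![v, ee i] := fun {f} hf v => by
      have := ((d1 hf).hasFDerivAt.clm_apply (hasFDerivAt_const (ee i) y)).fderiv
      rw [iteratedFDeriv_two_apply]
      have e : pd i f = fun z => fderiv ℝ f z (ee i) := rfl
      rw [e, this]
      simp
    have key : ∀ v, Tendsto (fun n => fderiv ℝ (pd i (F n)) y v) atTop
        (𝓝 (fderiv ℝ (pd i G) y v)) := fun v => by
      simp only [e2 (hF _), e2 hG]
      exact ((ContinuousMultilinearMap.apply ℝ (fun _ : Fin 2 => X) ℝ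
        ![v, ee i]).continuous.tendsto _).comp (h 2)
    have e3 : ∀ L : X →L[ℝ] ℝ, L = ∑ k, L (ee k) • (EuclideanSpace.proj k : X →L[ℝ] ℝ) := by
      intro L
      ext v
      conv_lhs => rw [← (EuclideanSpace.basisFun (Fin 3) ℝ).sum_repr v]
      simp [ee, mul_comm]
    rw [e3 (fderiv ℝ (pd i G) y)]
    refine Tendsto.congr (fun n => (e3 _).symm) ?_
    exact tendsto_finsetSum _ fun k _ => (key _).smul_const _

end Vale.Agent.P354T
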