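import Vale.Agent.P354T.Baire
import Vale.Agent.P354IK.Kpd

/-!
The statement BAIRE of the top level interface.
-/

open scoped ContDiff ENNReal
open Set Filter Topology

namespace Vale.Agent.P354T

open Vale.Agent.P354I

variable {M a r0 s : ℝ}

/-- All data are uniformly positive, if the Kerr data are smooth and positive. -/
lemma up_all2 (hs : 0 < s) (hk : P354J.PDy (kerr M a r0)) (d : Dset M a r0 s) :
    ∃ c > 0, UP d.1 c := by
  obtain ⟨c, c0, c1⟩ := up_kerr hk.1 fun y hy => (hk.2 y hy).1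
  set P := (pm s 0 d.1 (kerr M a r0)).toReal with hP
  have P0 : 0 ≤ P := ENNReal.toReal_nonneg
  have hd : pm s 0 d.1 (kerr M a r0) ≤ ENNReal.ofReal P := by
    rw [hP, ENNReal.ofReal_toReal (d.2.finite 0).ne]
  obtain ⟨L, hL⟩ := eventually_atTop.1
    ((tendsto_rpow_atTop hs).eventually (eventually_ge_atTop (6 * P / c)))
  obtain ⟨c', c0', c1'⟩ := up_compact (dsm d) (fun y hy => (d.2.pos y hy).1)
    (K := Metric.closedBall 0 (Real.exp L) \ Metric.ball 0 (Real.exp (-L)))
    ((isCompact_closedBall _ _).diff Metric.isOpen_ball) fun y hy e =>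
      hy.2 (by rw [e]; exact Metric.mem_ball_self (Real.exp_pos _))
  refine ⟨min (c / 2) c', by positivity, fun y hy v => ?_⟩
  have v0 : 0 ≤ ∑ i, v i ^ 2 := Finset.sum_nonneg fun _ _ => sq_nonneg _
  have n0 : 0 < ‖y‖ := norm_pos_iff.2 hy
  by_cases hl : L ≤ |Real.log ‖y‖|
  · have h1 : 6 * P / c ≤ √(1 + Real.log ‖y‖ ^ 2) ^ s :=
      hL _ (hl.trans (Real.abs_le_sqrt (by linarith)))
    have h2 := qf_close (A := d.1.h y) (B := (kerr M a r0).h y) (t := ‖y‖ ^ 2) (η := c / 6)
      (by positivity) (fun i j => by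
        have h3 := h_close P0 hd hy i j
        have h4 : 0 < √(1 + Real.log ‖y‖ ^ 2) ^ s := Real.rpow_pos_of_pos (rho_pos _) _
        rw [div_le_iff₀ c0] at h1
        refine le_of_mul_le_mul_left ?_ h4
        simp only [wt, add_zero] at h3
        nlinarith) v
    have h3 := c1 y hy v
    have h4 := mul_le_mul_of_nonneg_right (min_le_left (c / 2) c') v0
    linarith
  · have h1 := abs_lt.1 (not_le.1 hl)
    refine (mul_le_mul_of_nonneg_right (min_le_right _ _) v0).trans (c1' y ⟨?_, ?_⟩ v)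
    · rw [mem_closedBall_zero_iff]
      exact ((Real.log_lt_iff_lt_exp n0).1 h1.2).le
    · rw [mem_ball_zero_iff, not_lt]
      exact ((Real.lt_log_iff_exp_lt n0).1 h1.1).le

/-- The space of data is a Baire space. -/
theorem baire_main : BAIRE := by
  intro M a r0 s ha hM hs h1 h2
  have hk := P354IK.kpd M a r0 ha hM h1 h2
  have h0 : 0 < s := by linarith
  refine baire_of_local fun d => ?_
  obtain ⟨c, hc, h3⟩ := up_all2 h0 hk d
  exact ⟨_, isOpen_ball' d 0 _, mem_ball_self' d 0 (ENNReal.ofReal_pos.2 (by positivity)),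
    baire_ball h0.le hk.1 d hc h3⟩

end Vale.Agent.P354T
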